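import Vale.Agent.P046.Limit.Drift.Sums

/-! P046, the limit constant, module Drift: the three bounds, at one state. -/

open Finset

namespace Vale.Agent.P046.Limit.Drift

variable {ι : Type*} [DecidableEq ι] {V : Finset ι} {H : Finset (Finset ι)} {q : ι → ℝ}
  {c : Finset ι → ℝ} {Λ κ : ℝ} {w : ι → ℝ}

/-- The sum of the other two deviations. -/
theorem others_eq (hL : Lin V H) {k : Finset ι} (hk : k ∈ H) {i : ι} (hi : i ∈ k) :
    zSum H q c Λ k - zt H q c Λ i - 2 = ∑ j ∈ k.erase i, (zt H q c Λ j - 1) := by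
  have hc : ((k.erase i).card : ℝ) = 2 := by
    rw [card_erase_of_mem hi, hL.card3 k hk]; norm_num
  rw [zSum, ← add_sum_erase _ _ hi, sum_sub_distrib, sum_const, nsmul_eq_mul, mul_one, hc]
  ring

theorem St.beta_nonneg (h : St V H q c Λ κ w) {k : Finset ι} (hk : k ∈ H) :
    0 ≤ beta q c k ∧ beta q c k ≤ 3 := by
  refine ⟨sum_nonneg fun i hi =>
    div_nonneg (h.cpos k hk).le (h.qpos i (h.lin.sub k hk hi)).le, ?_⟩
  have : beta q c k ≤ ∑ _i ∈ k, (1 : ℝ) := sum_le_sum fun i hi => by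
    rw [bk, div_le_one (h.qpos i (h.lin.sub k hk hi))]; exact h.cle k hk i hi
  rw [sum_const, h.lin.card3 k hk] at this
  simpa using this

/-- The drift term of one side. -/
theorem St.drift_term (h : St V H q c Λ κ w) {k : Finset ι} (hk : k ∈ H) {i : ι} (hi : i ∈ k) :
    -(dphi (ut H q c Λ w i) * ((1 - w i) * (zSum H q c Λ k - zt H q c Λ i - 2)))
      ≤ -(dphi (ut H q c Λ w i) * ((∑ j ∈ k, am H q c Λ w j) - am H q c Λ w i - 2))
        - dphi (ut H q c Λ w i) * (∑ f ∈ k.erase i, w f)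
        + 4 * κ * ∑ j ∈ k, (4 * phi (ut H q c Λ w i) + 100 * phi (zt H q c Λ j - 1)) := by
  set d := dphi (ut H q c Λ w i) with hd
  set R := ∑ j ∈ k.erase i, (w j - w i) * (zt H q c Λ j - 1) with hR
  have hc : ((k.erase i).card : ℝ) = 2 := by
    rw [card_erase_of_mem hi, h.lin.card3 k hk]; norm_num
  have key : (1 - w i) * (zSum H q c Λ k - zt H q c Λ i - 2)
      = ((∑ j ∈ k, am H q c Λ w j) - am H q c Λ w i - 2) + (∑ f ∈ k.erase i, w f) + R := by
    rw [others_eq h.lin hk hi, ← add_sum_erase k (am H q c Λ w) hi, mul_sum,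
      show am H q c Λ w i + ∑ x ∈ k.erase i, am H q c Λ w x - am H q c Λ w i - 2
        = ∑ x ∈ k.erase i, (am H q c Λ w x - 1) by
          rw [sum_sub_distrib, sum_const, nsmul_eq_mul, mul_one, hc]; ring,
      hR, ← sum_add_distrib, ← sum_add_distrib]
    exact sum_congr rfl fun j _ => by rw [am]; ring
  have hR' : -(d * R) ≤ 4 * κ * ∑ j ∈ k,
      (4 * phi (ut H q c Λ w i) + 100 * phi (zt H q c Λ j - 1)) := by
    refine (neg_le_abs _).trans ?_
    rw [abs_mul, hR, mul_sum]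
    refine (mul_le_mul_of_nonneg_left (abs_sum_le_sum_abs _ _) (abs_nonneg _)).trans ?_
    rw [mul_sum]
    refine le_trans ?_ (sum_le_sum_of_subset_of_nonneg (erase_subset i k) fun j _ _ =>
      mul_nonneg (by linarith [h.cap0]) (by
        linarith [phi_nonneg (ut H q c Λ w i), phi_nonneg (zt H q c Λ j - 1)]))
    refine sum_le_sum fun j hj => ?_
    have hj' := mem_of_mem_erase hj
    have hw : |w j - w i| ≤ 4 * κ := (abs_sub _ _).trans (by linarith [h.wle j, h.wle i])
    have hy := Sharp.young_dphi (ut H q c Λ w i) (b := zt H q c Λ j - 1)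
      (by linarith [h.zt_pos hk hj'])
    rw [abs_mul, mul_left_comm]
    exact mul_le_mul hw hy (mul_nonneg (abs_nonneg _) (abs_nonneg _)) (by linarith [h.cap0])
  rw [key]
  linarith

theorem St.uPot_le (h : St V H q c Λ κ w) (η : Finset ι → ι → ℝ) {ε : ℝ} (hε : 0 < ε)
    (hε1 : ε ≤ 1) {μ : ℝ} (hμ : 0 < μ) :
    uPot V H q c η Λ w
      ≤ (1 + 200000 * κ + ε + 200000 * μ) * (Λ * potU V H q c Λ w)
        - (1 - 200000 * κ - 200000 * μ) * dissip H q c Λ w
        + 200000 * (κ + μ) * (Λ * potW V q w)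
        + 200000 / ε * (Λ * potV V H q c Λ w)
        + 200000 / μ * (potE H q c / Λ ^ 2)
        + 200000 * etaSum H η / Λ := by
  have hΛ := h.pos
  have hκ := h.cap0
  set d : ι → ℝ := fun i => dphi (ut H q c Λ w i) with hd
  set P := ∑ k ∈ H, c k * ∑ i ∈ k, phi (ut H q c Λ w i) with hP
  set Z := ∑ k ∈ H, c k * ∑ i ∈ k, phi (zt H q c Λ i - 1) with hZ
  set B := ∑ k ∈ H, c k * beta q c k ^ 2 with hB
  have split : uPot V H q c η Λ w
      = ∑ k ∈ H, c k * ∑ i ∈ k, (-phi (ut H q c Λ w i)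
          - d i * ((1 - w i) * (zSum H q c Λ k - zt H q c Λ i - 2))
          + d i * ((1 - w i) * (beta q c k / Λ)))
        - ∑ i ∈ V, d i * ((1 - w i) * (etaAt H η i / Λ)) := by
    rw [sum_congr rfl fun k _ => mul_sum k _ (c k), ← sum_swap h.lin, ← sum_sub_distrib, uPot]
    refine sum_congr rfl fun i hi => ?_
    have hq := (h.qpos i hi).ne'
    have hS : q i * load H q c i = ∑ k ∈ blocksAt H i, c k := by rw [load, mul_div_cancel₀ _ hq]
    have eR : q i * (dphi (ut H q c Λ w i) * (zRate H q c η Λ i * (1 - w i)))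
        = ∑ k ∈ blocksAt H i, -(d i * ((1 - w i) *
              (c k * (zSum H q c Λ k - zt H q c Λ i - 2 - beta q c k / Λ))))
          - d i * ((1 - w i) * (etaAt H η i / Λ)) := by
      rw [zRate, sub_mul, neg_mul, mul_sub, mul_sub, sum_mul, ← sum_neg_distrib, mul_sum, mul_sum]
      congr 1
      · exact sum_congr rfl fun k _ => by simp only [hd, bk]; field_simp
      · simp only [hd]; field_simp
    rw [eR, hS, neg_mul, sum_mul, ← sum_neg_distrib, ← add_sub_assoc, ← sum_add_distrib]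
    exact congrArg (· - _) (sum_congr rfl fun k _ => by ring)
  have per : ∀ k ∈ H, c k * ∑ i ∈ k, (-phi (ut H q c Λ w i)
          - d i * ((1 - w i) * (zSum H q c Λ k - zt H q c Λ i - 2))
          + d i * ((1 - w i) * (beta q c k / Λ)))
      ≤ c k * ((-dblock H q c Λ w k) + ∑ i ∈ k, phi (ut H q c Λ w i) / am H q c Λ w i
          - ∑ i ∈ k, d i * (∑ f ∈ k.erase i, w f)
          + 4 * κ * (12 * ∑ i ∈ k, phi (ut H q c Λ w i) + 300 * ∑ i ∈ k, phi (zt H q c Λ i - 1))
          + 2 * (μ * ∑ i ∈ k, phi (ut H q c Λ w i) + 3 * beta q c k ^ 2 / (μ * Λ ^ 2))) := by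
    intro k hk
    refine mul_le_mul_of_nonneg_left ?_ (h.cpos k hk).le
    have hcard : (k.card : ℝ) = 3 := by rw [h.lin.card3 k hk]; norm_num
    refine le_trans (sum_le_sum (g := fun i =>
      (-term (am H q c Λ w i) (∑ j ∈ k, am H q c Λ w j))
        + phi (ut H q c Λ w i) / am H q c Λ w i - d i * (∑ f ∈ k.erase i, w f)
        + 4 * κ * ∑ j ∈ k, (4 * phi (ut H q c Λ w i) + 100 * phi (zt H q c Λ j - 1))
        + 2 * (μ * phi (ut H q c Λ w i) + beta q c k ^ 2 / (μ * Λ ^ 2))) fun i hi => ?_) ?_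
    · have h1 := h.drift_term hk hi
      have h2 : d i * ((1 - w i) * (beta q c k / Λ))
          ≤ 2 * (μ * phi (ut H q c Λ w i) + beta q c k ^ 2 / (μ * Λ ^ 2)) := by
        have k1 := abs_dphi_mul_le_phi (ut H q c Λ w i) (c := beta q c k / Λ) hμ
        rw [div_pow, div_div, mul_comm (Λ ^ 2) μ] at k1
        refine (le_abs_self _).trans ?_
        rw [abs_mul, abs_mul, mul_left_comm]
        exact mul_le_mul (by
          obtain ⟨a1, a2⟩ := abs_le.1 (h.wsmall i)
          exact abs_le.2 ⟨by linarith, by linarith⟩) k1 (by positivity) zero_le_two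
      have e : term (am H q c Λ w i) (∑ j ∈ k, am H q c Λ w j)
          = phi (ut H q c Λ w i) + phi (ut H q c Λ w i) / am H q c Λ w i
            + d i * ((∑ j ∈ k, am H q c Λ w j) - am H q c Λ w i - 2) := by
        rw [term, hd, ← ut_eq]; ring
      simp only [hd] at *
      linarith
    · simp only [sum_add_distrib, sum_sub_distrib, sum_neg_distrib, ← mul_sum, sum_const,
        nsmul_eq_mul, hcard, dblock]
      apply le_of_eq
      ring
  have e1 : ∑ k ∈ H, c k * (-dblock H q c Λ w k) = -dissip H q c Λ w := by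
    rw [dissip_eq, ← sum_neg_distrib]; exact sum_congr rfl fun k _ => by ring
  have e2 : ∑ k ∈ H, c k * ∑ i ∈ k, phi (ut H q c Λ w i) / am H q c Λ w i
      ≤ (1 + 3 * κ) * (Λ * potU V H q c Λ w) := by
    rw [h.sum_point, potU, mul_sum, mul_sum]
    refine sum_le_sum fun i hi => ?_
    have hq := h.qpos i hi
    have hp := phi_nonneg (ut H q c Λ w i)
    have hw := abs_le.1 (h.wle i)
    have := h.capsmall
    have k1 : zt H q c Λ i * (phi (ut H q c Λ w i) / am H q c Λ w i)
        ≤ (1 + 3 * κ) * phi (ut H q c Λ w i) := by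
      rcases (h.zt_nonneg hi).eq_or_lt with hz | hz
      · rw [← hz, zero_mul]; positivity
      · rw [am, ← mul_div_assoc, mul_div_mul_left _ _ hz.ne',
          div_le_iff₀ (by linarith), mul_assoc, mul_comm (phi _), ← mul_assoc]
        exact le_mul_of_one_le_left hp (by nlinarith)
    have := mul_le_mul_of_nonneg_left k1 (mul_nonneg hΛ.le hq.le)
    linarith
  have e3 : ∑ k ∈ H, c k * ∑ i ∈ k, d i * (∑ f ∈ k.erase i, w f)
      = ∑ i ∈ V, Λ * (q i * (d i * xt H q c Λ w i)) := by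
    rw [sum_congr rfl fun k _ => mul_sum k _ (c k), ← sum_swap h.lin]
    refine sum_congr rfl fun i hi => ?_
    have hq := (h.qpos i hi).ne'
    simp only [xt, bk, sum_div, mul_sum]
    exact sum_congr rfl fun k _ => sum_congr rfl fun f _ => by field_simp
  have e4 : -(∑ i ∈ V, Λ * (q i * (d i * xt H q c Λ w i)))
      ≤ ε * (Λ * potU V H q c Λ w) + 100 / ε * (Λ * potV V H q c Λ w) := by
    rw [potU, potV, ← sum_neg_distrib]
    simp only [mul_sum, ← sum_add_distrib]
    refine sum_le_sum fun i hi => ?_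
    have k1 := mul_le_mul_of_nonneg_left
      ((neg_le_abs _).trans (le_of_eq_of_le (abs_mul _ _)
        (young_eps (ut H q c Λ w i) (xt H q c Λ w i) hε hε1)))
      (mul_nonneg hΛ.le (h.qpos i hi).le)
    simp only [hd]
    linarith
  have e5 : -(∑ i ∈ V, d i * ((1 - w i) * (etaAt H η i / Λ))) ≤ 6 * (etaSum H η / Λ) := by
    rw [← sum_neg_distrib]
    refine (sum_le_sum (g := fun i => 2 / Λ * |etaAt H η i|) fun i _ => ?_).trans ?_
    · refine (neg_le_abs _).trans ?_
      rw [abs_mul, abs_mul, abs_div, abs_of_pos hΛ]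
      obtain ⟨a1, a2⟩ := abs_le.1 (h.wsmall i)
      calc |d i| * (|1 - w i| * (|etaAt H η i| / Λ)) ≤ 1 * (2 * (|etaAt H η i| / Λ)) :=
            mul_le_mul (Sharp.dphi_abs_le _) (mul_le_mul_of_nonneg_right
              (abs_le.2 ⟨by linarith, by linarith⟩) (by positivity))
              (by positivity) zero_le_one
        _ = _ := by ring
    · rw [← mul_sum]
      refine (mul_le_mul_of_nonneg_left (h.sum_abs_etaAt η) (by positivity)).trans (le_of_eq ?_)
      ring
  have m1 : ∀ a : ℝ, ∀ g : Finset ι → ℝ, ∑ k ∈ H, c k * (a * g k) = a * ∑ k ∈ H, c k * g k :=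
    fun a g => by rw [mul_sum]; exact sum_congr rfl fun k _ => by ring
  have m2 : ∑ k ∈ H, c k * (3 * beta q c k ^ 2 / (μ * Λ ^ 2)) = 3 / (μ * Λ ^ 2) * B := by
    rw [hB, mul_sum]; exact sum_congr rfl fun k _ => by ring
  have eB : 2 * (3 / (μ * Λ ^ 2) * B) ≤ 18 / μ * (potE H q c / Λ ^ 2) := by
    refine (mul_le_mul_of_nonneg_left (mul_le_mul_of_nonneg_left h.sum_beta (by positivity))
      zero_le_two).trans (le_of_eq ?_)
    field_simp; ring
  have hU : 0 ≤ Λ * potU V H q c Λ w := mul_nonneg hΛ.le h.potU_nonneg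
  have hW : 0 ≤ Λ * potW V q w := mul_nonneg hΛ.le h.potW_nonneg
  have hE : 0 ≤ potE H q c / Λ ^ 2 / μ :=
    div_nonneg (div_nonneg h.potE_nonneg (sq_nonneg _)) hμ.le
  have hV : 0 ≤ Λ * potV V H q c Λ w / ε :=
    div_nonneg (mul_nonneg hΛ.le h.potV_nonneg) hε.le
  have hD := h.dissip_nonneg
  have hη : 0 ≤ etaSum H η / Λ :=
    div_nonneg (sum_nonneg fun _ _ => sum_nonneg fun _ _ => abs_nonneg _) hΛ.le
  have b1 := mul_le_mul_of_nonneg_left h.sum_phiu hκ
  have b2 := mul_le_mul_of_nonneg_left h.sum_phiz hκ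
  have b3 := mul_le_mul_of_nonneg_left h.sum_phiu hμ.le
  have n1 := mul_nonneg hκ hU
  have n2 := mul_nonneg hμ.le hU
  have n3 := mul_nonneg hκ hW
  have n4 := mul_nonneg hμ.le hW
  have n5 := mul_nonneg hκ hD
  have n6 := mul_nonneg hμ.le hD
  rw [← hP] at b1 b3
  rw [← hZ] at b2
  rw [split]
  refine (sub_le_sub_right (sum_le_sum per) _).trans ?_
  simp only [mul_add, mul_sub, sum_add_distrib, sum_sub_distrib]
  simp only [m1, m2, e1, e3, ← hP, ← hZ]
  simp only [div_eq_mul_inv] at *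
  linarith

/-- The bound used for a factor `φ'` at the neighbour average. -/
noncomputable def gv (H : Finset (Finset ι)) (q : ι → ℝ) (c : Finset ι → ℝ) (Λ : ℝ) (w : ι → ℝ)
    (i : ι) : ℝ :=
  if zt H q c Λ i ≤ 3 then phi (xt H q c Λ w i) else 1

theorem gv_nonneg (i : ι) : 0 ≤ gv H q c Λ w i := by
  unfold gv; split_ifs <;> first | exact phi_nonneg _ | exact zero_le_one

theorem St.sum_gv (h : St V H q c Λ κ w) :
    ∑ k ∈ H, c k * ∑ i ∈ k, gv H q c Λ w i
      ≤ 3 * (Λ * potV V H q c Λ w) + 4 * (Λ * potU V H q c Λ w) := by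
  rw [h.sum_point, potU, potV]
  simp only [mul_sum, ← sum_add_distrib]
  refine sum_le_sum fun i hi => ?_
  have key : zt H q c Λ i * gv H q c Λ w i
      ≤ 3 * phi (xt H q c Λ w i) + 4 * phi (ut H q c Λ w i) := by
    have hu := phi_nonneg (ut H q c Λ w i)
    have hx := phi_nonneg (xt H q c Λ w i)
    unfold gv
    split_ifs with hz
    · have := mul_le_mul_of_nonneg_right hz hx; linarith
    · have h1 : zt H q c Λ i ≤ 4 * phi (ut H q c Λ w i) := big_le_phi (not_le.1 hz) (h.wsmall i)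
      linarith
  have := mul_le_mul_of_nonneg_left key (mul_nonneg h.pos.le (h.qpos i hi).le)
  linarith

theorem St.vPot_le (h : St V H q c Λ κ w) (η : Finset ι → ι → ℝ) :
    vPot V H q c η Λ w ≤ 200000 * κ * (dissip H q c Λ w
      + Λ * (potU V H q c Λ w + potV V H q c Λ w + potW V q w)
      + potE H q c / Λ ^ 2 + etaSum H η / Λ) := by
  have hΛ := h.pos
  have hκ := h.cap0
  set G := ∑ k ∈ H, c k * ∑ i ∈ k, gv H q c Λ w i with hG
  set Z := ∑ k ∈ H, c k * ∑ i ∈ k, phi (zt H q c Λ i - 1) with hZ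
  set B := ∑ k ∈ H, c k * beta q c k ^ 2 with hB
  set N := ∑ k ∈ H, ∑ _i ∈ k, |etaBlock η k| with hN
  have per : ∀ k ∈ H, ∀ i ∈ k, dphi (xt H q c Λ w i) * ((∑ f ∈ k.erase i, w f) *
      (c k * (beta q c k / Λ - (zSum H q c Λ k - zt H q c Λ i - 2)) - etaBlock η k / Λ))
      ≤ 4 * κ * (c k * (13 * gv H q c Λ w i + beta q c k ^ 2 / Λ ^ 2
          + 102 * ∑ j ∈ k, phi (zt H q c Λ j - 1)) + |etaBlock η k| / Λ) := by
    intro k hk i hi
    have hc := (h.cpos k hk).le
    set d := dphi (xt H q c Λ w i) with hd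
    have hd1 : |d| ≤ 1 := Sharp.dphi_abs_le _
    have hW : |∑ f ∈ k.erase i, w f| ≤ 4 * κ := by
      refine (abs_sum_le_sum_abs _ _).trans
        ((sum_le_card_nsmul _ _ (2 * κ) fun f _ => h.wle f).trans ?_)
      rw [card_erase_of_mem hi, h.lin.card3 k hk]; simp; linarith
    have hb : |d| * |beta q c k / Λ| ≤ gv H q c Λ w i + beta q c k ^ 2 / Λ ^ 2 := by
      have h1 := abs_dphi_mul_le (xt H q c Λ w i) (c := beta q c k / Λ) one_pos
      rw [one_mul, div_one, div_pow] at h1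
      refine h1.trans (add_le_add ?_ le_rfl)
      unfold gv
      split_ifs
      · linarith [Sharp.dphi_sq_le (xt H q c Λ w i)]
      · nlinarith [sq_abs (dphi (xt H q c Λ w i)), abs_nonneg (dphi (xt H q c Λ w i)),
          Sharp.dphi_abs_le (xt H q c Λ w i)]
    have hz : ∀ j ∈ k, |d| * |zt H q c Λ j - 1|
        ≤ 4 * gv H q c Λ w i + 102 * phi (zt H q c Λ j - 1) := fun j hj => by
      have h0 : -1 ≤ zt H q c Λ j - 1 := by linarith [h.zt_pos hk hj]
      have hp := phi_nonneg (zt H q c Λ j - 1)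
      unfold gv
      split_ifs
      · have := Sharp.young_dphi (xt H q c Λ w i) h0; linarith
      · have h1 := mul_le_mul hd1 (abs_le_one_add h0) (abs_nonneg _) zero_le_one
        linarith
    have hO : |d| * |zSum H q c Λ k - zt H q c Λ i - 2|
        ≤ 12 * gv H q c Λ w i + 102 * ∑ j ∈ k, phi (zt H q c Λ j - 1) := by
      rw [others_eq h.lin hk hi]
      refine (mul_le_mul_of_nonneg_left ((abs_sum_le_sum_abs _ _).trans
        (sum_le_sum_of_subset_of_nonneg (erase_subset i k) fun j _ _ => abs_nonneg _))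
        (abs_nonneg _)).trans ?_
      rw [mul_sum]
      refine (sum_le_sum hz).trans (le_of_eq ?_)
      rw [sum_add_distrib, sum_const, h.lin.card3 k hk, ← mul_sum, nsmul_eq_mul]
      push_cast; ring
    rw [mul_left_comm]
    refine (le_abs_self _).trans ?_
    rw [abs_mul, abs_mul]
    refine mul_le_mul hW ?_ (by positivity) (by linarith)
    refine (mul_le_mul_of_nonneg_left (abs_sub _ _) (abs_nonneg _)).trans ?_
    rw [mul_add, abs_mul, abs_of_nonneg hc, mul_left_comm]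
    refine add_le_add (mul_le_mul_of_nonneg_left ?_ hc) ?_
    · refine (mul_le_mul_of_nonneg_left (abs_sub _ _) (abs_nonneg _)).trans ?_
      rw [mul_add]; linarith
    · rw [abs_div, abs_of_pos hΛ]; exact mul_le_of_le_one_left (by positivity) hd1
  have s1 : vPot V H q c η Λ w ≤ ∑ k ∈ H, ∑ i ∈ k, 4 * κ *
      (c k * (13 * gv H q c Λ w i + beta q c k ^ 2 / Λ ^ 2
          + 102 * ∑ j ∈ k, phi (zt H q c Λ j - 1)) + |etaBlock η k| / Λ) := by
    rw [← sum_swap h.lin]
    refine sum_le_sum fun i hi => ?_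
    have hl : 0 ≤ q i * load H q c i * phi (xt H q c Λ w i) := by
      have : load H q c i = Λ * zt H q c Λ i := by rw [zt]; field_simp
      rw [this]
      exact mul_nonneg (mul_nonneg (h.qpos i hi).le (mul_nonneg hΛ.le (h.zt_nonneg hi)))
        (phi_nonneg _)
    rw [xRate, mul_sum]
    have := sum_le_sum (s := blocksAt H i) fun k hk =>
      per k (mem_filter.1 hk).1 i (mem_filter.1 hk).2
    linarith
  have m1 : ∑ k ∈ H, ∑ i ∈ k, 4 * κ * (c k * (13 * gv H q c Λ w i + beta q c k ^ 2 / Λ ^ 2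
          + 102 * ∑ j ∈ k, phi (zt H q c Λ j - 1)) + |etaBlock η k| / Λ)
      = 4 * κ * (13 * G + 3 * B / Λ ^ 2 + 306 * Z + N / Λ) := by
    simp only [hG, hB, hZ, hN, mul_sum, sum_div, ← sum_add_distrib]
    refine sum_congr rfl fun k hk => ?_
    simp only [← mul_sum, ← sum_div, sum_add_distrib, sum_const, h.lin.card3 k hk, nsmul_eq_mul]
    push_cast; ring
  have b1 := h.sum_gv
  have b2 := h.sum_phiz
  have b3 : 3 * B / Λ ^ 2 ≤ 9 * (potE H q c / Λ ^ 2) := by
    rw [mul_div_assoc]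
    have := div_le_div_of_nonneg_right h.sum_beta (sq_nonneg Λ)
    rw [← hB, mul_div_assoc] at this
    linarith
  have b4 : N / Λ ≤ 3 * (etaSum H η / Λ) := by
    rw [← mul_div_assoc]; exact div_le_div_of_nonneg_right (h.sum_etaBlock η) hΛ.le
  have b5 : 13 * G + 3 * B / Λ ^ 2 + 306 * Z + N / Λ ≤ 50000 * (dissip H q c Λ w
      + Λ * (potU V H q c Λ w + potV V H q c Λ w + potW V q w)
      + potE H q c / Λ ^ 2 + etaSum H η / Λ) := by
    have := mul_nonneg hΛ.le h.potU_nonneg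
    have := mul_nonneg hΛ.le h.potV_nonneg
    have := mul_nonneg hΛ.le h.potW_nonneg
    have := h.dissip_nonneg
    have : 0 ≤ potE H q c / Λ ^ 2 := div_nonneg h.potE_nonneg (sq_nonneg _)
    have : 0 ≤ etaSum H η / Λ :=
      div_nonneg (sum_nonneg fun _ _ => sum_nonneg fun _ _ => abs_nonneg _) hΛ.le
    linarith
  refine s1.trans (m1.trans_le ?_)
  refine (mul_le_mul_of_nonneg_left b5 (by linarith)).trans (le_of_eq ?_)
  ring

theorem St.ePot_le (h : St V H q c Λ κ w) (η : Finset ι → ι → ℝ) :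
    ePot H q c η Λ ≤ (6 - 61 / 10 * Λ) * potE H q c
      + 200000 * Λ ^ 2 * (potU V H q c Λ w + potW V q w) + 200000 * etaSum H η := by
  have hΛ := h.pos
  set g : ι → ℝ := fun j => if zt H q c Λ j - 1 < 0 then phi (zt H q c Λ j - 1) else 0 with hg
  have per : ∀ k ∈ H, ∀ i ∈ k,
      c k * bk q c k i ^ 2 *
          (-3 - 3 * Λ * zSum H q c Λ k + 3 * beta q c k + 2 * Λ * zt H q c Λ i)
        - 3 * bk q c k i ^ 2 * etaBlock η k
      ≤ (6 - 61 / 10 * Λ) * (c k * bk q c k i ^ 2) + 30 * Λ * (c k * ∑ j ∈ k, g j)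
        + 3 * |etaBlock η k| := by
    intro k hk i hi
    have hq := h.qpos i (h.lin.sub k hk hi)
    have hc := (h.cpos k hk).le
    have hb0 : 0 ≤ bk q c k i ^ 2 := sq_nonneg _
    have hb1 : bk q c k i ^ 2 ≤ 1 := pow_le_one₀ (div_nonneg hc hq.le)
      (by rw [bk, div_le_one hq]; exact h.cle k hk i hi)
    have hO := others_eq (q := q) (c := c) (Λ := Λ) h.lin hk hi
    have hsum : -(∑ j ∈ k.erase i, (zt H q c Λ j - 1))
        ≤ 2 / 10 + 10 * ∑ j ∈ k.erase i, g j := by
      rw [← sum_neg_distrib]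
      refine (sum_le_sum (g := fun j => 1 / 10 + 10 * g j) fun j _ => neg_le_neg_part _).trans
        (le_of_eq ?_)
      rw [sum_add_distrib, sum_const, card_erase_of_mem hi, h.lin.card3 k hk, ← mul_sum]
      norm_num
    have hi' : -(zt H q c Λ i - 1) ≤ 1 / 10 + 10 * g i := neg_le_neg_part _
    have hg0 : 0 ≤ g i := by
      simp only [hg]; split_ifs <;> first | exact phi_nonneg _ | exact le_rfl
    have hbeta := h.beta_nonneg hk
    have hs := add_sum_erase k g hi
    have hx : -3 * zSum H q c Λ k + 2 * zt H q c Λ i ≤ -63 / 10 + 30 * ∑ j ∈ k, g j := by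
      linarith
    have hbr : -3 - 3 * Λ * zSum H q c Λ k + 3 * beta q c k + 2 * Λ * zt H q c Λ i
        ≤ 6 - 61 / 10 * Λ + 30 * Λ * ∑ j ∈ k, g j := by
      have := mul_le_mul_of_nonneg_left hx hΛ.le
      linarith [hbeta.2]
    have hG0 : 0 ≤ ∑ j ∈ k, g j := sum_nonneg fun j _ => by
      simp only [hg]; split_ifs <;> first | exact phi_nonneg _ | exact le_rfl
    have k1 := mul_le_mul_of_nonneg_left hbr (mul_nonneg hc hb0)
    have k2 := mul_le_mul_of_nonneg_right hb1
      (mul_nonneg (mul_nonneg (show (0:ℝ) ≤ 30 by norm_num) hΛ.le) (mul_nonneg hc hG0))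
    have k3 : -(3 * bk q c k i ^ 2 * etaBlock η k) ≤ 3 * |etaBlock η k| := by
      refine (neg_le_abs _).trans ?_
      rw [abs_mul, abs_of_nonneg (mul_nonneg (by norm_num : (0:ℝ) ≤ 3) hb0)]
      exact mul_le_mul_of_nonneg_right (by linarith) (abs_nonneg _)
    linarith
  refine (sum_le_sum fun k hk => sum_le_sum (per k hk)).trans ?_
  have e1 : ∑ k ∈ H, ∑ i ∈ k, ((6 - 61 / 10 * Λ) * (c k * bk q c k i ^ 2)
      + 30 * Λ * (c k * ∑ j ∈ k, g j) + 3 * |etaBlock η k|)
      = (6 - 61 / 10 * Λ) * potE H q c + 90 * Λ * (∑ k ∈ H, c k * ∑ j ∈ k, g j)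
        + 3 * ∑ k ∈ H, ∑ _i ∈ k, |etaBlock η k| := by
    simp only [potE, mul_sum, ← sum_add_distrib]
    refine sum_congr rfl fun k hk => ?_
    simp only [← mul_sum, sum_add_distrib, sum_const, h.lin.card3 k hk, nsmul_eq_mul]
    push_cast; ring
  rw [e1]
  have b1 := mul_le_mul_of_nonneg_left h.sum_phiz_neg (show 0 ≤ 90 * Λ by linarith)
  have b2 := h.sum_etaBlock η
  have p1 : 0 ≤ Λ ^ 2 * potU V H q c Λ w := mul_nonneg (sq_nonneg _) h.potU_nonneg
  have p2 : 0 ≤ Λ ^ 2 * potW V q w := mul_nonneg (sq_nonneg _) h.potW_nonneg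
  have p3 : 0 ≤ etaSum H η := sum_nonneg fun _ _ => sum_nonneg fun _ _ => abs_nonneg _
  simp only [← hg] at b1
  linarith

end Vale.Agent.P046.Limit.Drift
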