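import Vale.Agent.P046.Limit.Drift.Phi

/-! P046, the limit constant, module Drift: the rates of the quantities of the calculus. -/

open Finset

namespace Vale.Agent.P046.Limit.Drift

variable {ι : Type*} [DecidableEq ι]

/-- The side sum of the relative death rates. -/
noncomputable def zSum (H : Finset (Finset ι)) (q : ι → ℝ) (c : Finset ι → ℝ) (Λ : ℝ)
    (k : Finset ι) : ℝ :=
  ∑ j ∈ k, zt H q c Λ j

/-- The side sum of the weights. -/
noncomputable def beta (q : ι → ℝ) (c : Finset ι → ℝ) (k : Finset ι) : ℝ := ∑ j ∈ k, bk q c k j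

/-- The error at the block `k`. -/
noncomputable def etaBlock (η : Finset ι → ι → ℝ) (k : Finset ι) : ℝ := ∑ j ∈ k, η k j

/-- The error at the point `i`. -/
noncomputable def etaAt (H : Finset (Finset ι)) (η : Finset ι → ι → ℝ) (i : ι) : ℝ :=
  ∑ k ∈ blocksAt H i, etaBlock η k

/-- The rate of the relative death rate. -/
noncomputable def zRate (H : Finset (Finset ι)) (q : ι → ℝ) (c : Finset ι → ℝ)
    (η : Finset ι → ι → ℝ) (Λ : ℝ) (i : ι) : ℝ :=
  -∑ k ∈ blocksAt H i,
      bk q c k i * (zSum H q c Λ k - zt H q c Λ i - 2 - beta q c k / Λ)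
    - etaAt H η i / (q i * Λ)

/-- The rate of the neighbour average, times `q`. -/
noncomputable def xRate (H : Finset (Finset ι)) (q : ι → ℝ) (c : Finset ι → ℝ)
    (η : Finset ι → ι → ℝ) (Λ : ℝ) (w : ι → ℝ) (i : ι) : ℝ :=
  ∑ k ∈ blocksAt H i, (∑ f ∈ k.erase i, w f) *
    (c k * (beta q c k / Λ - (zSum H q c Λ k - zt H q c Λ i - 2)) - etaBlock η k / Λ)

/-- The rate of the potential of the drift part. -/
noncomputable def uPot (V : Finset ι) (H : Finset (Finset ι)) (q : ι → ℝ) (c : Finset ι → ℝ)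
    (η : Finset ι → ι → ℝ) (Λ : ℝ) (w : ι → ℝ) : ℝ :=
  ∑ i ∈ V, (-(q i * load H q c i) * phi (ut H q c Λ w i)
    + q i * (dphi (ut H q c Λ w i) * (zRate H q c η Λ i * (1 - w i))))

/-- The rate of the potential of the neighbour average. -/
noncomputable def vPot (V : Finset ι) (H : Finset (Finset ι)) (q : ι → ℝ) (c : Finset ι → ℝ)
    (η : Finset ι → ι → ℝ) (Λ : ℝ) (w : ι → ℝ) : ℝ :=
  ∑ i ∈ V, (-(q i * load H q c i) * phi (xt H q c Λ w i)
    + dphi (xt H q c Λ w i) * xRate H q c η Λ w i)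

/-- The rate of the potential of the exclusion weights. -/
noncomputable def ePot (H : Finset (Finset ι)) (q : ι → ℝ) (c : Finset ι → ℝ)
    (η : Finset ι → ι → ℝ) (Λ : ℝ) : ℝ :=
  ∑ k ∈ H, ∑ i ∈ k, (c k * bk q c k i ^ 2 *
      (-3 - 3 * Λ * zSum H q c Λ k + 3 * beta q c k + 2 * Λ * zt H q c Λ i)
    - 3 * bk q c k i ^ 2 * etaBlock η k)

theorem lam_den_pos {D t : ℝ} (hD : 1 ≤ D) (ht : 0 ≤ t) :
    0 < 1 + 2 * D * (1 - Real.exp (-t)) := by
  have : Real.exp (-t) ≤ 1 := Real.exp_le_one_iff.2 (by linarith)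
  nlinarith

theorem lam_pos {D t : ℝ} (hD : 1 ≤ D) (ht : 0 ≤ t) : 0 < lam D t :=
  div_pos (mul_pos (by linarith) (Real.exp_pos _)) (lam_den_pos hD ht)

theorem hasDerivAt_lam {D t : ℝ} (hD : 1 ≤ D) (ht : 0 ≤ t) :
    HasDerivAt (lam D) (-lam D t * (1 + 2 * lam D t)) t := by
  have e : HasDerivAt (fun u : ℝ => Real.exp (-u)) (-Real.exp (-t)) t := by
    simpa using (hasDerivAt_id t).neg.exp
  have hd := lam_den_pos hD ht
  refine ((e.const_mul D).div (((e.const_sub 1).const_mul (2 * D)).const_add 1) hd.ne').congr_deriv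
    ?_
  simp only [lam]
  generalize 1 + 2 * D * (1 - Real.exp (-t)) = den at hd ⊢
  field_simp
  ring

theorem load_eq {H : Finset (Finset ι)} {q : ι → ℝ} {c : Finset ι → ℝ} {i : ι} :
    load H q c i = ∑ k ∈ blocksAt H i, bk q c k i := by
  simp only [load, bk, sum_div]

section Path

variable {V : Finset ι} {H : Finset (Finset ι)} {q : ℝ → ι → ℝ} {c : ℝ → Finset ι → ℝ}
  {η : ℝ → Finset ι → ι → ℝ} {D t : ℝ}

theorem block_rate (hD : 1 ≤ D) (ht : 0 ≤ t) (k : Finset ι) :
    -c t k - ∑ i ∈ k, (c t k * (load H (q t) (c t) i - bk (q t) (c t) k i) + η t k i)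
      = -c t k - c t k * lam D t * zSum H (q t) (c t) (lam D t) k
        + c t k * beta (q t) (c t) k - etaBlock (η t) k := by
  have hl := (lam_pos hD ht).ne'
  have e : lam D t * zSum H (q t) (c t) (lam D t) k = ∑ i ∈ k, load H (q t) (c t) i := by
    rw [zSum, mul_sum]
    exact sum_congr rfl fun i _ => by rw [zt]; field_simp
  rw [mul_assoc, e, beta, etaBlock, sum_add_distrib, mul_sum, mul_sum]
  simp only [mul_sub, sum_sub_distrib]
  ring

variable (hO : Ode V H q c η) (hD : 1 ≤ D) (ht : 0 ≤ t)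
include hO hD ht

omit hD in
theorem q_rate {i : ι} (hi : i ∈ V) :
    HasDerivAt (fun u => q u i) (-(q t i * load H (q t) (c t) i)) t := by
  refine (hO.q_deriv t ht i hi).congr_deriv ?_
  rw [load, mul_div_cancel₀ _ (hO.q_pos t ht i hi).ne']

theorem c_rate {k : Finset ι} (hk : k ∈ H) :
    HasDerivAt (fun u => c u k) (-c t k - c t k * lam D t * zSum H (q t) (c t) (lam D t) k
        + c t k * beta (q t) (c t) k - etaBlock (η t) k) t :=
  (hO.c_deriv t ht k hk).congr_deriv (block_rate hD ht k)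

theorem zt_rate {i : ι} (hi : i ∈ V) :
    HasDerivAt (fun u => zt H (q u) (c u) (lam D u) i)
      (zRate H (q t) (c t) (η t) (lam D t) i) t := by
  have hq := (hO.q_pos t ht i hi).ne'
  have hl := (lam_pos hD ht).ne'
  have h := ((HasDerivAt.fun_sum fun k (hk : k ∈ blocksAt H i) =>
    c_rate hO hD ht (mem_filter.1 hk).1).div (q_rate hO ht hi) hq).div (hasDerivAt_lam hD ht) hl
  refine h.congr_deriv ?_
  set Z := zSum H (q t) (c t) (lam D t) with hZ
  have hS : ∑ k ∈ blocksAt H i, c t k = q t i * load H (q t) (c t) i := by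
    rw [load, mul_div_cancel₀ _ hq]
  have e3 : ∑ k ∈ blocksAt H i, bk (q t) (c t) k i *
      (Z k - zt H (q t) (c t) (lam D t) i - 2 - beta (q t) (c t) k / lam D t)
      = ((∑ k ∈ blocksAt H i, c t k * Z k)
          - (zt H (q t) (c t) (lam D t) i + 2) * (∑ k ∈ blocksAt H i, c t k)
          - (∑ k ∈ blocksAt H i, c t k * beta (q t) (c t) k) / lam D t) / q t i := by
    simp only [mul_sum, sum_div, ← sum_sub_distrib]
    exact sum_congr rfl fun k _ => by rw [bk]; ring
  have e4 : ∑ k ∈ blocksAt H i, (-c t k - c t k * lam D t * Z k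
      + c t k * beta (q t) (c t) k - etaBlock (η t) k)
      = -(∑ k ∈ blocksAt H i, c t k) - lam D t * (∑ k ∈ blocksAt H i, c t k * Z k)
          + (∑ k ∈ blocksAt H i, c t k * beta (q t) (c t) k) - etaAt H (η t) i := by
    simp only [etaAt, mul_sum, ← sum_neg_distrib, ← sum_sub_distrib, ← sum_add_distrib]
    exact sum_congr rfl fun k _ => by ring
  simp only [Pi.div_apply]
  rw [zRate, ← hZ, e3, e4, zt, hS]
  field_simp
  ring

theorem ut_rate (w : ι → ℝ) {i : ι} (hi : i ∈ V) :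
    HasDerivAt (fun u => ut H (q u) (c u) (lam D u) w i)
      (zRate H (q t) (c t) (η t) (lam D t) i * (1 - w i)) t :=
  ((zt_rate hO hD ht hi).mul_const _).sub_const _

theorem xt_rate (w : ι → ℝ) {i : ι} (hi : i ∈ V) :
    HasDerivAt (fun u => xt H (q u) (c u) (lam D u) w i)
      (xRate H (q t) (c t) (η t) (lam D t) w i / q t i) t := by
  have hq := (hO.q_pos t ht i hi).ne'
  have hl := (lam_pos hD ht).ne'
  have h := (HasDerivAt.fun_sum fun k (hk : k ∈ blocksAt H i) =>
    (((c_rate hO hD ht (mem_filter.1 hk).1).div (q_rate hO ht hi) hq).mul_const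
      (∑ f ∈ k.erase i, w f))).div (hasDerivAt_lam hD ht) hl
  refine h.congr_deriv ?_
  simp only [xRate, zt, Pi.div_apply]
  rw [sum_mul, sum_mul, ← sum_sub_distrib, sum_div, sum_div]
  refine sum_congr rfl fun k _ => ?_
  field_simp
  ring

theorem potU_rate (w : ι → ℝ) :
    HasDerivAt (fun u => potU V H (q u) (c u) (lam D u) w)
      (uPot V H (q t) (c t) (η t) (lam D t) w) t :=
  HasDerivAt.fun_sum fun _ hi =>
    (q_rate hO ht hi).mul ((hasDerivAt_phi _).comp t (ut_rate hO hD ht w hi))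

theorem potV_rate (w : ι → ℝ) :
    HasDerivAt (fun u => potV V H (q u) (c u) (lam D u) w)
      (vPot V H (q t) (c t) (η t) (lam D t) w) t := by
  refine (HasDerivAt.fun_sum fun i hi =>
    (q_rate hO ht hi).mul ((hasDerivAt_phi _).comp t (xt_rate hO hD ht w hi))).congr_deriv ?_
  refine sum_congr rfl fun i hi => ?_
  have hq := (hO.q_pos t ht i hi).ne'
  simp only [Function.comp_apply]
  field_simp

theorem potE_rate (hL : Lin V H) :
    HasDerivAt (fun u => potE H (q u) (c u)) (ePot H (q t) (c t) (η t) (lam D t)) t := by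
  have hl := (lam_pos hD ht).ne'
  refine (HasDerivAt.fun_sum fun k hk => (c_rate hO hD ht hk).mul
    (HasDerivAt.fun_sum fun i hi =>
      ((c_rate hO hD ht hk).div (q_rate hO ht (hL.sub k hk hi))
        (hO.q_pos t ht i (hL.sub k hk hi)).ne').pow 2)).congr_deriv ?_
  refine sum_congr rfl fun k hk => ?_
  rw [mul_sum, mul_sum, ← sum_add_distrib]
  refine sum_congr rfl fun i hi => ?_
  have hq := (hO.q_pos t ht i (hL.sub k hk hi)).ne'
  simp only [Pi.div_apply, Pi.pow_apply, bk, zt, Nat.cast_ofNat, Nat.add_one_sub_one, pow_one]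
  field_simp
  ring

end Path

end Vale.Agent.P046.Limit.Drift
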