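import Vale.Agent.P046.Limit.Defs

/-! P046, the limit constant, module Drift: facts on the shape. -/

namespace Vale.Agent.P046.Limit.Drift

theorem dphi_mono : Monotone dphi := by
  intro a b hab
  unfold dphi
  split_ifs with h1 h2 h3 h4 h5 h6 h7 h8
  all_goals first
    | linarith
    | (have : 1 / (1 + b) ^ 2 ≤ 1 / (1 + a) ^ 2 :=
        one_div_le_one_div_of_le (by positivity) (by nlinarith)
       linarith)
    | (have : 1 / (1 + b) ^ 2 ≤ 1 := by rw [div_le_one (by positivity)]; nlinarith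
       linarith)

theorem phi_step_back (z h : ℝ) : |phi (z + h) - phi z - dphi z * h| ≤ h ^ 2 := by
  have h1 := phi_step z h
  have h2 := phi_step (z + h) (-h)
  rw [add_neg_cancel_right] at h2
  have h3 : dphi z * h ≤ dphi (z + h) * h := by
    rcases le_total 0 h with hh | hh
    · exact mul_le_mul_of_nonneg_right (dphi_mono (by linarith)) hh
    · exact mul_le_mul_of_nonpos_right (dphi_mono (by linarith)) hh
  rw [abs_le]
  constructor <;> nlinarith

theorem hasDerivAt_phi (z : ℝ) : HasDerivAt phi (dphi z) z := by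
  rw [hasDerivAt_iff_isLittleO_nhds_zero]
  refine (Asymptotics.isBigO_of_le _ fun h => ?_).trans_isLittleO
    (Asymptotics.isLittleO_pow_id (by norm_num : 1 < 2))
  rw [smul_eq_mul, Real.norm_eq_abs, Real.norm_eq_abs, mul_comm h, abs_of_nonneg (sq_nonneg h)]
  exact phi_step_back z h

/-- The weighted form of Young for the shape. -/
theorem young_eps (a b : ℝ) {ε : ℝ} (hε : 0 < ε) (hε1 : ε ≤ 1) :
    |dphi a| * |b| ≤ ε * phi a + 100 / ε * phi b := by
  have h1 := Sharp.dphi_sq_le a
  have h3 := phi_nonneg a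
  have h4 := phi_nonneg b
  have h5 : phi b ≤ 1 / ε * phi b :=
    le_mul_of_one_le_left h4 (by rw [le_div_iff₀ hε]; linarith)
  rw [show 100 / ε * phi b = 100 * (1 / ε * phi b) by ring]
  rcases le_or_gt |b| 1 with h | h
  · have h2 := Sharp.sq_le_phi (abs_le.1 h).1 (abs_le.1 h).2
    have k : |dphi a| * |b| ≤ ε * phi a + b ^ 2 / ε := by
      rw [← sub_le_iff_le_add', le_div_iff₀ hε]
      nlinarith [sq_nonneg (ε * |dphi a| / 2 - |b|), sq_abs (dphi a), sq_abs b,
        mul_le_mul_of_nonneg_left h1 (sq_nonneg ε)]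
    have k2 : b ^ 2 / ε ≤ 100 * (1 / ε * phi b) := by
      rw [div_le_iff₀ hε]
      calc b ^ 2 ≤ 100 * phi b := h2
        _ = _ := by field_simp
    linarith
  · have hb : |b| ≤ 6 * phi b := by
      rcases le_or_gt 0 b with hb | hb
      · rw [abs_of_nonneg hb] at h ⊢; linarith [Sharp.le_two_phi h]
      · rw [abs_of_neg hb] at h ⊢
        rw [phi, if_neg (not_le.2 hb), if_neg (by linarith)]
        linarith
    have : |dphi a| * |b| ≤ |b| := mul_le_of_le_one_left (abs_nonneg _) (Sharp.dphi_abs_le a)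
    have : 0 ≤ ε * phi a := by positivity
    have : 0 ≤ 1 / ε * phi b := by positivity
    linarith

theorem abs_dphi_mul_le (a : ℝ) {c μ : ℝ} (hμ : 0 < μ) :
    |dphi a| * |c| ≤ μ * (dphi a ^ 2 / 4) + c ^ 2 / μ := by
  rw [← sub_le_iff_le_add', le_div_iff₀ hμ, ← sq_abs (dphi a), ← sq_abs c]
  nlinarith [sq_nonneg (μ * |dphi a| / 2 - |c|)]

theorem abs_dphi_mul_le_phi (a : ℝ) {c μ : ℝ} (hμ : 0 < μ) :
    |dphi a| * |c| ≤ μ * phi a + c ^ 2 / μ :=
  (abs_dphi_mul_le a hμ).trans (add_le_add (mul_le_mul_of_nonneg_left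
    (by linarith [Sharp.dphi_sq_le a]) hμ.le) le_rfl)

theorem abs_le_one_add {z : ℝ} (hz : -1 ≤ z) : |z| ≤ 1 + 2 * phi z := by
  have := phi_nonneg z
  rcases le_or_gt z 1 with h | h
  · have := abs_le.2 ⟨hz, h⟩; linarith
  · rw [abs_of_pos (by linarith)]; linarith [Sharp.le_two_phi h]

/-- The negative part is small or paid by the shape. -/
theorem neg_le_neg_part (z : ℝ) : -z ≤ 1 / 10 + 10 * (if z < 0 then phi z else 0) := by
  split_ifs with h
  · have := neg_le_phi (z := z) (ε := 1 / 10) (by norm_num) le_rfl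
    linarith
  · linarith

/-- A large relative rate is paid by the shape. -/
theorem big_le_phi {ζ w : ℝ} (h : 3 < ζ) (hw : |w| ≤ 1 / 500) :
    ζ ≤ 4 * phi (ζ * (1 - w) - 1) := by
  obtain ⟨h1, h2⟩ := abs_le.1 hw
  have : ζ * (499 / 500) ≤ ζ * (1 - w) := mul_le_mul_of_nonneg_left (by linarith) (by linarith)
  have := Sharp.le_two_phi (z := ζ * (1 - w) - 1) (by linarith)
  linarith

end Vale.Agent.P046.Limit.Drift
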