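import Vale.Agent.P046.Limit.Drift.Deriv

/-! P046, the limit constant, module Drift: the sums over blocks, at one state. -/

open Finset

namespace Vale.Agent.P046.Limit.Drift

variable {ι : Type*} [DecidableEq ι]

/-- A state of the calculus. -/
structure St (V : Finset ι) (H : Finset (Finset ι)) (q : ι → ℝ) (c : Finset ι → ℝ) (Λ κ : ℝ)
    (w : ι → ℝ) : Prop where
  lin : Lin V H
  qpos : ∀ i ∈ V, 0 < q i
  cpos : ∀ k ∈ H, 0 < c k
  cle : ∀ k ∈ H, ∀ i ∈ k, c k ≤ q i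
  pos : 0 < Λ
  cap0 : 0 ≤ κ
  capsmall : κ ≤ 1 / 1000
  wle : ∀ i, |w i| ≤ 2 * κ

/-- The corrected relative death rate. -/
noncomputable def am (H : Finset (Finset ι)) (q : ι → ℝ) (c : Finset ι → ℝ) (Λ : ℝ) (w : ι → ℝ)
    (i : ι) : ℝ :=
  zt H q c Λ i * (1 - w i)

variable {V : Finset ι} {H : Finset (Finset ι)} {q : ι → ℝ} {c : Finset ι → ℝ} {Λ κ : ℝ}
  {w : ι → ℝ}

theorem ut_eq (i : ι) : ut H q c Λ w i = am H q c Λ w i - 1 := rfl

theorem sum_swap (hL : Lin V H) (g : Finset ι → ι → ℝ) :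
    ∑ i ∈ V, ∑ k ∈ blocksAt H i, g k i = ∑ k ∈ H, ∑ i ∈ k, g k i := by
  refine sum_comm' fun i k => ?_
  simp only [blocksAt, mem_filter]
  exact ⟨fun h => ⟨h.2.2, h.2.1⟩, fun h => ⟨hL.sub k h.2 h.1, h.2, h.1⟩⟩

theorem St.wsmall (h : St V H q c Λ κ w) (i : ι) : |w i| ≤ 1 / 500 :=
  (h.wle i).trans (by linarith [h.capsmall])

theorem St.sum_blocks (h : St V H q c Λ κ w) {i : ι} (hi : i ∈ V) :
    ∑ k ∈ blocksAt H i, c k = Λ * (q i * zt H q c Λ i) := by
  have := (h.qpos i hi).ne'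
  have := h.pos.ne'
  rw [zt, load]
  field_simp

theorem St.sum_point (h : St V H q c Λ κ w) (g : ι → ℝ) :
    ∑ k ∈ H, c k * ∑ i ∈ k, g i = ∑ i ∈ V, Λ * (q i * zt H q c Λ i * g i) := by
  rw [sum_congr rfl fun k _ => mul_sum k g (c k)]
  rw [← sum_swap h.lin]
  refine sum_congr rfl fun i hi => ?_
  rw [← sum_mul, h.sum_blocks hi]
  ring

theorem St.zt_nonneg (h : St V H q c Λ κ w) {i : ι} (hi : i ∈ V) : 0 ≤ zt H q c Λ i :=
  div_nonneg (div_nonneg (sum_nonneg fun k hk => (h.cpos k (mem_filter.1 hk).1).le)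
    (h.qpos i hi).le) h.pos.le

theorem St.zt_pos (h : St V H q c Λ κ w) {k : Finset ι} (hk : k ∈ H) {i : ι} (hi : i ∈ k) :
    0 < zt H q c Λ i :=
  div_pos (div_pos (sum_pos (fun j hj => h.cpos j (mem_filter.1 hj).1)
    ⟨k, mem_filter.2 ⟨hk, hi⟩⟩) (h.qpos i (h.lin.sub k hk hi))) h.pos

theorem St.am_pos (h : St V H q c Λ κ w) {k : Finset ι} (hk : k ∈ H) {i : ι} (hi : i ∈ k) :
    0 < am H q c Λ w i :=
  mul_pos (h.zt_pos hk hi) (by linarith [abs_le.1 (h.wsmall i)])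

theorem St.zt_le_am (h : St V H q c Λ κ w) {i : ι} (hi : i ∈ V) :
    zt H q c Λ i ≤ 101 / 100 * am H q c Λ w i := by
  have h1 := h.zt_nonneg hi
  have := mul_le_mul_of_nonneg_left
    (show (499 : ℝ) / 500 ≤ 1 - w i by linarith [abs_le.1 (h.wsmall i)]) h1
  rw [am]
  linarith

/-- The dissipation of one block. -/
noncomputable def dblock (H : Finset (Finset ι)) (q : ι → ℝ) (c : Finset ι → ℝ) (Λ : ℝ)
    (w : ι → ℝ) (k : Finset ι) : ℝ :=
  ∑ i ∈ k, term (am H q c Λ w i) (∑ j ∈ k, am H q c Λ w j)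

theorem dissip_eq : dissip H q c Λ w = ∑ k ∈ H, c k * dblock H q c Λ w k := rfl

theorem St.block_bounds (h : St V H q c Λ κ w) {k : Finset ι} (hk : k ∈ H) :
    0 ≤ dblock H q c Λ w k ∧
      ((∑ j ∈ k, am H q c Λ w j) - 12) / 2 ≤ dblock H q c Λ w k := by
  obtain ⟨a, b, d, hab, had, hbd, e⟩ := card_eq_three.1 (h.lin.card3 k hk)
  have sum3 : ∀ f : ι → ℝ, ∑ i ∈ k, f i = f a + f b + f d := fun f => by
    rw [e, sum_insert (by simp [hab, had]), sum_insert (by simp [hbd]), sum_singleton, add_assoc]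
  have ha := h.am_pos hk (show a ∈ k by simp [e])
  have hb := h.am_pos hk (show b ∈ k by simp [e])
  have hd := h.am_pos hk (show d ∈ k by simp [e])
  rw [dblock, sum3, sum3]
  exact ⟨terms_nonneg ha hb hd, terms_ge_linear ha hb hd⟩

theorem St.dissip_nonneg (h : St V H q c Λ κ w) : 0 ≤ dissip H q c Λ w :=
  sum_nonneg fun k hk => mul_nonneg (h.cpos k hk).le (h.block_bounds hk).1

theorem St.potU_nonneg (h : St V H q c Λ κ w) : 0 ≤ potU V H q c Λ w :=
  sum_nonneg fun i hi => mul_nonneg (h.qpos i hi).le (phi_nonneg _)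

theorem St.potV_nonneg (h : St V H q c Λ κ w) : 0 ≤ potV V H q c Λ w :=
  sum_nonneg fun i hi => mul_nonneg (h.qpos i hi).le (phi_nonneg _)

theorem St.potW_nonneg (h : St V H q c Λ κ w) : 0 ≤ potW V q w :=
  sum_nonneg fun i hi => mul_nonneg (h.qpos i hi).le (sq_nonneg _)

theorem St.potE_nonneg (h : St V H q c Λ κ w) : 0 ≤ potE H q c :=
  sum_nonneg fun k hk => mul_nonneg (h.cpos k hk).le (sum_nonneg fun _ _ => sq_nonneg _)

theorem St.sum_phiu (h : St V H q c Λ κ w) :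
    ∑ k ∈ H, c k * ∑ i ∈ k, phi (ut H q c Λ w i)
      ≤ 27 * (Λ * potU V H q c Λ w) + 7 * dissip H q c Λ w := by
  set g : ι → ℝ := fun i => if am H q c Λ w i ≤ 26 then phi (ut H q c Λ w i) else 0 with hg
  have hg0 : ∀ i, 0 ≤ g i := fun i => by
    simp only [hg]; split_ifs <;> first | exact phi_nonneg _ | exact le_rfl
  have key : ∀ k ∈ H, c k * ∑ i ∈ k, phi (ut H q c Λ w i)
      ≤ c k * (7 * dblock H q c Λ w k + ∑ i ∈ k, g i) := fun k hk => by
    refine mul_le_mul_of_nonneg_left ?_ (h.cpos k hk).le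
    have hb := h.block_bounds hk
    have hsum : 0 ≤ ∑ i ∈ k, g i := sum_nonneg fun i _ => hg0 i
    rcases le_or_gt (∑ j ∈ k, am H q c Λ w j) 26 with hs | hs
    · have e : ∑ i ∈ k, g i = ∑ i ∈ k, phi (ut H q c Λ w i) := sum_congr rfl fun i hi => if_pos
        ((single_le_sum (fun j hj => (h.am_pos hk hj).le) hi).trans hs)
      linarith [hb.1]
    · have h1 : ∑ i ∈ k, phi (ut H q c Λ w i) ≤ ∑ i ∈ k, (am H q c Λ w i + 1) :=
        sum_le_sum fun i hi => (Sharp.phi_le_abs _).trans (by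
          rw [ut_eq]; have := h.am_pos hk hi; exact abs_le.2 ⟨by linarith, by linarith⟩)
      rw [sum_add_distrib, sum_const, h.lin.card3 k hk] at h1
      simp only [nsmul_eq_mul, Nat.cast_ofNat, mul_one] at h1
      linarith [hb.2]
  refine (sum_le_sum key).trans ?_
  simp only [mul_add, sum_add_distrib, mul_left_comm (c _) (7 : ℝ), ← mul_sum (a := (7 : ℝ))]
  rw [← dissip_eq, h.sum_point, add_comm, potU]
  simp only [mul_sum]
  refine add_le_add (sum_le_sum fun i hi => ?_) le_rfl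
  simp only [hg]
  split_ifs with ha
  · have h27 : zt H q c Λ i ≤ 27 := by linarith [h.zt_le_am hi]
    have := mul_le_mul_of_nonneg_right h27
      (mul_nonneg (mul_nonneg h.pos.le (h.qpos i hi).le) (phi_nonneg (ut H q c Λ w i)))
    linarith
  · rw [mul_zero, mul_zero]
    exact mul_nonneg (by norm_num)
      (mul_nonneg h.pos.le (mul_nonneg (h.qpos i hi).le (phi_nonneg _)))

theorem St.sum_wsq (h : St V H q c Λ κ w) :
    ∑ k ∈ H, c k * ∑ i ∈ k, w i ^ 2 ≤ 3 * (Λ * potW V q w) + Λ * potU V H q c Λ w := by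
  rw [h.sum_point, potW, potU]
  simp only [mul_sum, ← sum_add_distrib]
  refine sum_le_sum fun i hi => ?_
  have hΛ := h.pos
  have hq := h.qpos i hi
  have hp := phi_nonneg (ut H q c Λ w i)
  have key : zt H q c Λ i * w i ^ 2 ≤ 3 * w i ^ 2 + phi (ut H q c Λ w i) := by
    rcases le_or_gt (zt H q c Λ i) 3 with hz | hz
    · have := mul_le_mul_of_nonneg_right hz (sq_nonneg (w i)); linarith
    · have h1 : zt H q c Λ i ≤ 4 * phi (ut H q c Λ w i) := big_le_phi hz (h.wsmall i)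
      have h2 : w i ^ 2 ≤ 1 / 4 := by
        have := h.wsmall i
        nlinarith [sq_abs (w i), abs_nonneg (w i)]
      have := mul_le_mul h1 h2 (sq_nonneg _) (by positivity)
      nlinarith [sq_nonneg (w i)]
  have := mul_le_mul_of_nonneg_left key (mul_nonneg hΛ.le hq.le)
  linarith

theorem St.sum_phiz (h : St V H q c Λ κ w) :
    ∑ k ∈ H, c k * ∑ i ∈ k, phi (zt H q c Λ i - 1)
      ≤ 159 * (Λ * potU V H q c Λ w) + 35 * dissip H q c Λ w + 72 * (Λ * potW V q w) := by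
  have h0 : ∑ k ∈ H, c k * ∑ i ∈ k, phi (zt H q c Λ i - 1)
      ≤ ∑ k ∈ H, c k * ∑ i ∈ k, (5 * phi (ut H q c Λ w i) + 24 * w i ^ 2) :=
    sum_le_sum fun k hk => mul_le_mul_of_nonneg_left (sum_le_sum fun i hi =>
      Sharp.phi_shift (h.zt_pos hk hi).le ((h.wsmall i).trans (by norm_num))) (h.cpos k hk).le
  refine h0.trans ?_
  simp only [sum_add_distrib, ← mul_sum, mul_add, mul_left_comm (c _) (5 : ℝ),
    mul_left_comm (c _) (24 : ℝ)]
  linarith [h.sum_phiu, h.sum_wsq]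

theorem St.sum_phiz_neg (h : St V H q c Λ κ w) :
    ∑ k ∈ H, c k * ∑ i ∈ k, (if zt H q c Λ i - 1 < 0 then phi (zt H q c Λ i - 1) else 0)
      ≤ 5 * (Λ * potU V H q c Λ w) + 24 * (Λ * potW V q w) := by
  rw [h.sum_point, potW, potU]
  simp only [mul_sum, ← sum_add_distrib]
  refine sum_le_sum fun i hi => ?_
  have hΛ := h.pos
  have hq := h.qpos i hi
  have hz := h.zt_nonneg hi
  have hs : phi (zt H q c Λ i - 1) ≤ 5 * phi (ut H q c Λ w i) + 24 * w i ^ 2 :=
    Sharp.phi_shift hz ((h.wsmall i).trans (by norm_num))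
  have key : zt H q c Λ i * (if zt H q c Λ i - 1 < 0 then phi (zt H q c Λ i - 1) else 0)
      ≤ 5 * phi (ut H q c Λ w i) + 24 * w i ^ 2 := by
    split_ifs with h1
    · exact (mul_le_of_le_one_left (phi_nonneg _) (by linarith)).trans hs
    · rw [mul_zero]; linarith [phi_nonneg (zt H q c Λ i - 1)]
  have := mul_le_mul_of_nonneg_left key (mul_nonneg hΛ.le hq.le)
  linarith

theorem St.sum_beta (h : St V H q c Λ κ w) :
    ∑ k ∈ H, c k * beta q c k ^ 2 ≤ 3 * potE H q c := by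
  rw [potE, mul_sum]
  refine sum_le_sum fun k hk => ?_
  have h1 : beta q c k ^ 2 ≤ 3 * ∑ i ∈ k, bk q c k i ^ 2 := by
    have := sq_sum_le_card_mul_sum_sq (s := k) (f := bk q c k)
    rwa [h.lin.card3 k hk, Nat.cast_ofNat] at this
  have := mul_le_mul_of_nonneg_left h1 (h.cpos k hk).le
  linarith

omit [DecidableEq ι] in
theorem abs_etaBlock_le (η : Finset ι → ι → ℝ) (k : Finset ι) :
    |etaBlock η k| ≤ ∑ i ∈ k, |η k i| :=
  abs_sum_le_sum_abs _ _

theorem St.sum_etaBlock (h : St V H q c Λ κ w) (η : Finset ι → ι → ℝ) :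
    ∑ k ∈ H, ∑ _i ∈ k, |etaBlock η k| ≤ 3 * etaSum H η := by
  rw [etaSum, mul_sum]
  refine sum_le_sum fun k hk => ?_
  rw [sum_const, h.lin.card3 k hk, nsmul_eq_mul, Nat.cast_ofNat]
  exact mul_le_mul_of_nonneg_left (abs_etaBlock_le η k) (by norm_num)

theorem St.sum_abs_etaAt (h : St V H q c Λ κ w) (η : Finset ι → ι → ℝ) :
    ∑ i ∈ V, |etaAt H η i| ≤ 3 * etaSum H η := by
  refine le_trans (sum_le_sum fun i _ => abs_sum_le_sum_abs _ _) ?_
  rw [sum_swap h.lin]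
  exact h.sum_etaBlock η

end Vale.Agent.P046.Limit.Drift
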